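import Crest.Agent.X212.Ann83.Sq
import Crest.Agent.X212.Srf12.Defs
import Crest.Agent.X212.Lad50.PL

/-!
# X212 / Ann83 (helper83), part 2: the leaves ANNC and ANNF of SURF

* `ann_of_disc`, `annc` : a disc minus a disc, a sphere minus two discs is an annulus;
* `loop_lift` : two parametrisations of a PL circle differ by a PL homeomorphism of the line;
* `annf` : the boundary parametrisations of an annulus can be prescribed.
-/

set_option autoImplicit false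
set_option linter.unusedSectionVars false

open Set Metric Topology

namespace Crest.Agent.X212.Ann83

open Crest.Agent.R096 Crest.Agent.R096.Ce_537 Crest.Agent.R096.Cb_609 Crest.Agent.X212.Srf12
open Crest.Agent.X212.Lad50

variable {E : Type*} [NormedAddCommGroup E] [NormedSpace ℝ E]

theorem mem_II {x : ℝ} : x ∈ II ↔ |x| ≤ 1 := abs_le.symm

theorem TwoSq.ann {S G₁ G₂ : Set E} {h k : ℝ × ℝ → E} (H : TwoSq S G₁ G₂ h k) :
    ∃ g, Ann S g ∧ g '' {y | y 0 = -1} = G₁ ∧ g '' {y | y 0 = 1} = G₂ := by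
  let P : ℤ → ℝ × ℝ → E := fun n => if Even n then h else k
  let τ : ℤ → ℝ → ℝ := fun n s => 4 * s - (2 * n + 1)
  let g : (Fin 2 → ℝ) → E := fun y => P ⌊2 * y 1⌋ (y 0, τ ⌊2 * y 1⌋ (y 1))
  have t1 : ∀ s : ℝ, -1 ≤ τ ⌊2 * s⌋ s ∧ τ ⌊2 * s⌋ s < 1 := fun s =>
    ⟨by simp only [τ]; linarith [Int.floor_le (2 * s)],
      by simp only [τ]; linarith [Int.lt_floor_add_one (2 * s)]⟩
  have t2 : ∀ s : ℝ, τ ⌊2 * s⌋ s ∈ II := fun s => ⟨(t1 s).1, (t1 s).2.le⟩
  have pe : ∀ {n}, Even n → P n = h := fun hn => if_pos hn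
  have po : ∀ {n}, ¬Even n → P n = k := fun hn => if_neg hn
  have key : ∀ (n : ℤ) (y : Fin 2 → ℝ), y 0 ∈ II → n ≤ 2 * y 1 → 2 * y 1 ≤ n + 1 →
      g y = P n (y 0, τ n (y 1)) := fun n y h0 h1 h2 => by
    rcases h2.lt_or_eq with h2 | h2
    · simp only [g, Int.floor_eq_iff.2 ⟨h1, h2⟩]
    · have e : ⌊2 * y 1⌋ = n + 1 := by rw [h2]; exact_mod_cast Int.floor_intCast (R := ℝ) (n + 1)
      have e1 : τ (n + 1) (y 1) = -1 := by simp only [τ]; push_cast; linarith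
      have e2 : τ n (y 1) = 1 := by simp only [τ]; linarith
      simp only [g, e, e1, e2]
      by_cases hn : Even n
      · rw [pe hn, po (Int.even_add_one.not.2 (not_not.2 hn)), H.up _ h0]
      · rw [po hn, pe (Int.even_add_one.2 hn), H.dn _ h0]
  have im : ∀ s ⊆ II, g '' {y | y 0 ∈ s} = h '' (s ×ˢ II) ∪ k '' (s ×ˢ II) := fun s hs => by
    refine Subset.antisymm ?_ ?_
    · rintro _ ⟨y, hy, rfl⟩
      by_cases hn : Even ⌊2 * y 1⌋
      · exact Or.inl ⟨_, mk_mem_prod hy (t2 _), congrFun (pe hn).symm _⟩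
      · exact Or.inr ⟨_, mk_mem_prod hy (t2 _), congrFun (po hn).symm _⟩
    · have a : ∀ (n : ℤ), ∀ z ∈ s ×ˢ II, P n z ∈ g '' {y | y 0 ∈ s} := fun n z hz => by
        refine ⟨![z.1, (z.2 + (2 * n + 1)) / 4], hz.1, (key n _ (hs hz.1) ?_ ?_).trans ?_⟩
        · show _ ≤ 2 * ((z.2 + (2 * n + 1)) / 4)
          linarith [hz.2.1]
        · show 2 * ((z.2 + (2 * n + 1)) / 4) ≤ _
          linarith [hz.2.2]
        · refine congrArg (P n) (Prod.ext rfl ?_)
          show 4 * ((z.2 + (2 * n + 1)) / 4) - (2 * n + 1) = _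
          ring
      rintro _ (⟨z, hz, rfl⟩ | ⟨z, hz, rfl⟩)
      · exact pe Even.zero ▸ a 0 z hz
      · exact po Int.not_even_one ▸ a 1 z hz
  have fib : ∀ z ∈ II ×ˢ II, ∀ w ∈ II ×ˢ II, z.2 < 1 → w.2 < 1 → h z ≠ k w :=
    fun z hz w hw h1 h2 e => by
      have e1 := (H.fib z hz w hw e).resolve_left h1.ne
      have e2 := H.ik (mk_mem_prod hz.1 pI) hw (by rw [H.dn _ hz.1, ← e1, e])
      exact h2.ne (congrArg Prod.snd e2).symm
  refine ⟨g, ⟨fun R => ?_, ?_, fun y y' h1 h2 => ⟨fun e => ?_, ?_⟩⟩,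
    (im {-1} (singleton_subset_iff.2 mI)).trans H.lf, (im {1} (singleton_subset_iff.2 pI)).trans H.rt⟩
  · refine (plOn_biUnion (K := fun n : ℤ => {y : Fin 2 → ℝ | y 0 ∈ II ∧ n ≤ 2 * y 1 ∧ 2 * y 1 ≤ n + 1})
      _ (finite_Icc ⌊-(2 * R)⌋ ⌊2 * R⌋) (fun n _ => ?_) fun n _ => ?_).mono fun y hy => ?_
    · refine PLOn.congr (PLOn.comp (g := P n) (L := II ×ˢ II) ?_ (pl_prod (pl_coord 0 _)
        (pl_sub (pl_mul 4 (pl_coord 1 _)) (plOn_const (2 * n + 1 : ℝ) _))) fun y hy =>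
          ⟨hy.1, by linarith [hy.2.1], by linarith [hy.2.2]⟩) fun y hy => key n y hy.1 hy.2.1 hy.2.2
      by_cases hn : Even n
      exacts [pe hn ▸ H.ph, po hn ▸ H.pk]
    · exact (isClosed_Icc.preimage (continuous_apply 0)).inter
        (isClosed_Icc.preimage (continuous_const.mul (continuous_apply 1)))
    · have := abs_le.1 hy.2
      exact mem_biUnion (x := ⌊2 * y 1⌋) ⟨Int.floor_mono (by linarith), Int.floor_mono (by linarith)⟩
        ⟨mem_II.2 hy.1, Int.floor_le _, (Int.lt_floor_add_one _).le⟩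
  · rw [← H.im, ← im II subset_rfl]
    simp only [mem_II]
  · have m1 := mk_mem_prod (mem_II.2 h1) (t2 (y 1))
    have m2 := mk_mem_prod (mem_II.2 h2) (t2 (y' 1))
    have fin : (y 0, τ ⌊2 * y 1⌋ (y 1)) = (y' 0, τ ⌊2 * y' 1⌋ (y' 1)) → (Even ⌊2 * y 1⌋ ↔ Even ⌊2 * y' 1⌋) →
        y 0 = y' 0 ∧ ∃ m : ℤ, y 1 - y' 1 = m := fun e1 e2 => by
      obtain ⟨m, hm⟩ := Int.even_sub.2 e2
      have e3 := congrArg Prod.snd e1
      have e4 : ((⌊2 * y 1⌋ : ℝ)) - ⌊2 * y' 1⌋ = m + m := by exact_mod_cast hm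
      exact ⟨congrArg Prod.fst e1, m, by simp only [τ] at e3; linarith⟩
    simp only [g] at e
    by_cases a : Even ⌊2 * y 1⌋ <;> by_cases b : Even ⌊2 * y' 1⌋
    · exact fin (H.ih m1 m2 (by rwa [pe a, pe b] at e)) (iff_of_true a b)
    · exact absurd (by rwa [pe a, po b] at e) (fib _ m1 _ m2 (t1 _).2 (t1 _).2)
    · exact absurd (by rw [po a, pe b] at e; exact e.symm) (fib _ m2 _ m1 (t1 _).2 (t1 _).2)
    · exact fin (H.ik m1 m2 (by rwa [po a, po b] at e)) (iff_of_false a b)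
  · rintro ⟨e0, m, hm⟩
    have e1 : ⌊2 * y 1⌋ = ⌊2 * y' 1⌋ + 2 * m := by
      rw [← Int.floor_add_intCast]
      congr 1
      push_cast
      linarith
    have e2 : τ ⌊2 * y 1⌋ (y 1) = τ ⌊2 * y' 1⌋ (y' 1) := by
      simp only [τ, e1]
      push_cast
      linarith
    have e3 : P ⌊2 * y 1⌋ = P ⌊2 * y' 1⌋ := by simp [P, e1, Int.even_add]
    simp only [g, e0, e2, e3]

/-- a disc minus the interior of a disc in its interior is an annulus -/
theorem ann_of_disc {B G₁ D G : Set E} (hB : IsBall 2 B G₁) (hD : IsBall 2 D G) (hDB : D ⊆ B)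
    (hd : Disjoint D G₁) :
    ∃ g, Ann (B \ (D \ G)) g ∧ g '' {y | y 0 = -1} = G₁ ∧ g '' {y | y 0 = 1} = G := by
  obtain ⟨h, k, H⟩ := twoSq_of_disc hB hD hDB hd
  exact H.ann

/-- the complement of a disc in a sphere -/
theorem compl_disc {X D G : Set E} (hX : Sph X) (hD : IsBall 2 D G) (hs : D ⊆ X) :
    ∃ B, IsBall 2 B G ∧ D ∪ B = X ∧ D ∩ B = G := by
  obtain ⟨e⟩ := hX
  obtain ⟨B, h1, h2⟩ := exists_compl_disc (isBall_cube 3) (hD.map (e.symm.restrImage hs))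
    (by rintro _ ⟨x, hx, rfl⟩; exact e.mg (hs hx))
  have hB : B ⊆ sph 3 := h2 ▸ subset_union_right
  have k1 : ∀ s ⊆ X, e.f '' (e.g '' s) = s := fun s hs => image_g e.symm hs rfl
  refine ⟨e.f '' B, k1 G (hD.subset.trans hs) ▸ h1.ball₂.map (e.restrImage hB), ?_, ?_⟩
  · rw [← k1 D hs, ← image_union]
    exact (congrArg _ h2).trans e.image_eq
  · rw [← k1 D hs]
    exact (e.injOn.image_inter (subset_union_left.trans h2.le) hB).symm.trans
      ((congrArg _ h1.inter).trans (k1 G (hD.subset.trans hs)))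

/-- **ANNC** -/
theorem annc {X D₁ G₁ D₂ G₂ : Set E} (hX : Sph X) (h₁ : IsBall 2 D₁ G₁) (h₂ : IsBall 2 D₂ G₂)
    (s₁ : D₁ ⊆ X) (s₂ : D₂ ⊆ X) (hd : Disjoint D₁ D₂) :
    ∃ g, Ann (X \ ((D₁ \ G₁) ∪ (D₂ \ G₂))) g ∧ g '' {y | y 0 = -1} = G₁ ∧ g '' {y | y 0 = 1} = G₂ := by
  obtain ⟨B, b1, b2, b3⟩ := compl_disc hX h₁ s₁
  have e : X \ ((D₁ \ G₁) ∪ (D₂ \ G₂)) = B \ (D₂ \ G₂) := by
    rw [← sdiff_sdiff, ← b2, ← b3]
    congr 1
    ext x
    simp only [mem_sdiff, mem_union, mem_inter_iff]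
    tauto
  rw [e]
  exact ann_of_disc b1 h₂ (fun x hx => (b2.ge (s₂ hx)).resolve_left (disjoint_right.1 hd hx))
    (hd.symm.mono_right h₁.subset)

/-! ### loops -/

/-- a PL homeomorphism of the line commuting with the unit translation -/
structure Up (φ : ℝ → ℝ) : Prop where
  pl : ∀ R : ℝ, PLOn φ (Icc (-R) R)
  mono : StrictMono φ
  per : ∀ s, φ (s + 1) = φ s + 1

theorem continuous_of_pl {φ : ℝ → E} (h : ∀ R : ℝ, PLOn φ (Icc (-R) R)) : Continuous φ :=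
  continuous_iff_continuousAt.2 fun s => (h (|s| + 1)).1.continuousAt
    (Icc_mem_nhds (by linarith [neg_abs_le s]) (by linarith [le_abs_self s]))

theorem pl_neg_arg {φ : ℝ → E} (h : ∀ R : ℝ, PLOn φ (Icc (-R) R)) (R : ℝ) :
    PLOn (fun s => φ (-s)) (Icc (-R) R) :=
  (h R).comp (pl_neg (plOn_id _)) fun s hs => ⟨by linarith [hs.2], by linarith [hs.1]⟩

theorem Up.rev {φ : ℝ → ℝ} (h : Up φ) : Up fun s => -φ (-s) :=
  ⟨fun R => pl_neg (pl_neg_arg h.pl R), fun _ _ hs => neg_lt_neg (h.mono (neg_lt_neg hs)), fun s => by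
    have := h.per (-(s + 1))
    rw [show -(s + 1) + 1 = -s by ring] at this
    linarith⟩

theorem per_int {φ : ℝ → ℝ} {c : ℝ} (h : ∀ s, φ (s + 1) = φ s + c) (s : ℝ) (n : ℤ) :
    φ (s + n) = φ s + n * c := by
  have : Function.Periodic (fun s => φ s - s * c) 1 := fun s => by simp only [h]; ring
  have := this.int_mul n s
  simp only [mul_one] at this
  linarith

theorem int_const {f : ℝ → ℝ} (hf : Continuous f) (h : ∀ s, ∃ m : ℤ, f s = m) :
    ∃ m : ℤ, ∀ s, f s = m := by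
  obtain ⟨m, hm⟩ := h 0
  refine ⟨m, fun s => hm ▸ isPreconnected_univ.constant_of_mapsTo (T := range ((↑) : ℤ → ℝ))
    (Int.isClosedEmbedding_coe_real.isEmbedding.isInducing.isDiscrete_range) hf.continuousOn
    (fun s _ => (h s).imp fun _ => Eq.symm) (mem_univ s) (mem_univ 0)⟩

theorem surj_of_per {φ : ℝ → ℝ} (hc : Continuous φ) (h : ∀ s, φ (s + 1) = φ s + 1) :
    Function.Surjective φ := fun v => by
  have h1 := per_int h 0 ⌊v - φ 0⌋
  have h2 := h (0 + ⌊v - φ 0⌋)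
  obtain ⟨s, -, e⟩ := intermediate_value_Icc (le_add_of_nonneg_right zero_le_one) hc.continuousOn
    (show v ∈ Icc (φ (0 + ⌊v - φ 0⌋)) (φ (0 + ⌊v - φ 0⌋ + 1)) from
      ⟨by linarith [Int.floor_le (v - φ 0)], by linarith [Int.lt_floor_add_one (v - φ 0)]⟩)
  exact ⟨s, e⟩

theorem lift_cont {G : Set E} {γ δ : ℝ → E} (h : Loop G γ) (h' : Loop G δ) :
    ∃ (φ : ℝ → ℝ) (m : ℤ), Continuous φ ∧ (∀ s, δ (φ s) = γ s) ∧ ∀ s, φ (s + 1) = φ s + m := by
  have hp : Function.Periodic δ 1 := fun s => (h'.fib _ _).2 ⟨1, by simp⟩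
  have hc : Continuous (hp.lift : AddCircle (1 : ℝ) → E) :=
    (QuotientAddGroup.isQuotientMap_mk _).continuous_iff.2 (continuous_of_pl h'.pl)
  have hi : Function.Injective (hp.lift : AddCircle (1 : ℝ) → E) := by
    rintro ⟨a⟩ ⟨b⟩ e
    obtain ⟨m, hm⟩ := (h'.fib a b).1 e
    exact QuotientAddGroup.eq_iff_sub_mem.2 ⟨m, by simp [hm]⟩
  have hs : ∀ s, ∃ t, δ t = γ s := fun s => (h.img.trans h'.img.symm).le ⟨s, rfl⟩
  choose u hu using hs
  have cu : Continuous fun s => (u s : AddCircle (1 : ℝ)) :=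
    (hc.isClosedEmbedding hi).isInducing.continuous_iff.2
      ((continuous_of_pl h.pl).congr fun s => (hu s).symm)
  obtain ⟨φ, ⟨-, h2⟩, -⟩ := (AddCircle.isCoveringMap_coe (1 : ℝ)).existsUnique_continuousMap_lifts
    ⟨_, cu⟩ 0 (u 0) rfl
  have h3 : ∀ s, δ (φ s) = γ s := fun s => (congrArg hp.lift (congrFun h2 s)).trans (hu s)
  obtain ⟨m, hm⟩ := int_const (f := fun s => φ (s + 1) - φ s) (by fun_prop) fun s =>
    (h'.fib _ _).1 (by rw [h3, h3]; exact (h.fib _ _).2 ⟨1, by simp⟩)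
  exact ⟨φ, m, φ.continuous, h3, fun s => by linarith [hm s]⟩

variable [FiniteDimensional ℝ E]

theorem loop_lift {G : Set E} {γ δ : ℝ → E} (h : Loop G γ) (h' : Loop G δ) :
    ∃ ψ, Up ψ ∧ ((∀ s, δ (ψ s) = γ s) ∨ ∀ s, δ (-ψ s) = γ s) := by
  obtain ⟨φ, m, c1, e1, p1⟩ := lift_cont h h'
  obtain ⟨χ, n, c2, e2, p2⟩ := lift_cont h' h
  obtain ⟨k, hk⟩ := int_const (f := fun s => χ (φ s) - s) (by fun_prop) fun s =>
    (h.fib _ _).1 (by rw [e2, e1])
  have hi : Function.Injective φ := fun s t e => by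
    have a := hk s
    have b := hk t
    simp only [e] at a b
    linarith
  have mn : m * n = 1 := by
    have a := hk (0 + 1)
    have b := hk 0
    simp only [p1, per_int p2] at a b
    exact_mod_cast (by linarith : (m : ℝ) * n = 1)
  have pl : ∀ R : ℝ, PLOn φ (Icc (-R) R) := fun R => by
    refine plOn_of_locPL (locPL_of_nhds fun s _ => ?_) isCompact_Icc (subset_univ _)
    have hJ := isBall_segment (a := φ s - 1 / 4) (b := φ s + 1 / 4) (by linarith)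
    rw [segment_eq_Icc (by linarith)] at hJ
    let e := Cx_609.equivOfInjOn (Cx_609.isBall_iff.1 hJ).finConv isClosed_Icc
      ((h'.pl (|φ s| + 1)).mono (Icc_subset_Icc (by linarith [neg_abs_le (φ s)])
        (by linarith [le_abs_self (φ s)]))) fun a ha b hb e => by
          obtain ⟨j, hj⟩ := (h'.fib a b).1 e
          have : |j| < 1 := by
            have : |(j : ℝ)| < 1 := abs_lt.2 ⟨by linarith [ha.1, hb.2], by linarith [ha.2, hb.1]⟩
            exact_mod_cast this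
          rw [Int.abs_lt_one_iff.1 this, Int.cast_zero] at hj
          linarith
    refine ⟨φ ⁻¹' Icc (φ s - 1 / 4) (φ s + 1 / 4) ∩ Icc (-(|s| + 1)) (|s| + 1), Filter.inter_mem
      (c1.continuousAt (Icc_mem_nhds (by linarith) (by linarith)))
      (Icc_mem_nhds (by linarith [neg_abs_le s]) (by linarith [le_abs_self s])),
      (e.pg.comp ((h.pl _).mono inter_subset_right) fun t ht => ⟨φ t, ht.1, e1 t⟩).congr fun t ht => ?_⟩
    show φ t = e.g (γ t)
    rw [← e1]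
    exact (e.li _ ht.1).symm
  have p0 := p1 0
  rcases c1.strictMono_of_inj hi with hm | hm
  · have := hm (show (0 : ℝ) < 0 + 1 by norm_num)
    obtain rfl : m = 1 := (Int.eq_one_or_neg_one_of_mul_eq_one mn).resolve_right fun e => by
      rw [e] at p0; push_cast at p0; linarith
    exact ⟨φ, ⟨pl, hm, by simpa using p1⟩, Or.inl e1⟩
  · have := hm (show (0 : ℝ) < 0 + 1 by norm_num)
    obtain rfl : m = -1 := (Int.eq_one_or_neg_one_of_mul_eq_one mn).resolve_left fun e => by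
      rw [e] at p0; push_cast at p0; linarith
    exact ⟨fun s => -φ s, ⟨fun R => pl_neg (pl R), hm.neg, fun s => by rw [p1]; push_cast; ring⟩,
      Or.inr fun s => by rw [neg_neg, e1]⟩

omit [FiniteDimensional ℝ E] in
theorem ann_loop {S : Set E} {g : (Fin 2 → ℝ) → E} (h : Ann S g) {c : ℝ} (hc : |c| ≤ 1) :
    Loop (g '' {y | y 0 = c}) fun s => g ![c, s] := by
  refine ⟨fun R => (h.pl R).comp (pl_vec2 (plOn_const c _) (plOn_id _)) fun s hs => ⟨hc, abs_le.2 hs⟩,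
    Subset.antisymm ?_ ?_, fun s t => (h.fib _ _ hc hc).trans (and_iff_right rfl)⟩
  · rintro _ ⟨s, rfl⟩
    exact ⟨_, rfl, rfl⟩
  · rintro _ ⟨y, rfl, rfl⟩
    exact ⟨y 1, congrArg g (by ext i; fin_cases i <;> rfl)⟩

omit [FiniteDimensional ℝ E] in
/-- reparametrisation of an annulus along the circles -/
theorem ann_comp {S : Set E} {g : (Fin 2 → ℝ) → E} (h : Ann S g) {ψ : (Fin 2 → ℝ) → ℝ}
    (pl : ∀ R : ℝ, PLOn ψ (closedBall 0 R)) (hs : ∀ t, Function.Surjective fun s => ψ ![t, s])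
    (fib : ∀ t s s', (∃ m : ℤ, ψ ![t, s] - ψ ![t, s'] = m) ↔ ∃ m : ℤ, s - s' = m) :
    Ann S fun y => g ![y 0, ψ y] := by
  have eta : ∀ y : Fin 2 → ℝ, ![y 0, y 1] = y := fun y => by ext i; fin_cases i <;> rfl
  refine ⟨fun R => ?_, h.img ▸ Subset.antisymm ?_ ?_, fun y y' h1 h2 =>
    (h.fib ![y 0, ψ y] ![y' 0, ψ y'] h1 h2).trans
    (and_congr_right fun e : y 0 = y' 0 => ?_)⟩
  · obtain ⟨C, hC⟩ := (isCompact_closedBall _ _).exists_bound_of_continuousOn (pl (max 1 R)).1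
    have hs : {y : Fin 2 → ℝ | |y 0| ≤ 1 ∧ |y 1| ≤ R} ⊆ closedBall 0 (max 1 R) := fun y hy => by
      rw [mem_closedBall_zero_iff, pi_norm_le_iff_of_nonneg (by positivity)]
      intro i
      fin_cases i
      exacts [hy.1.trans (le_max_left _ _), hy.2.trans (le_max_right _ _)]
    exact (h.pl C).comp (pl_vec2 (pl_coord 0 _) ((pl _).mono hs)) fun y hy => ⟨hy.1, hC y (hs hy)⟩
  · rintro _ ⟨y, hy, rfl⟩
    exact ⟨![y 0, ψ y], hy, rfl⟩
  · rintro _ ⟨y, hy, rfl⟩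
    obtain ⟨s, e⟩ := hs (y 0) (y 1)
    exact ⟨![y 0, s], hy, congrArg g ((congrArg (fun v => ![y 0, v]) e).trans (eta y))⟩
  · have := fib (y 0) (y 1) (y' 1)
    rwa [eta, e, eta] at this

omit [FiniteDimensional ℝ E] in
theorem ann_flip {S : Set E} {g : (Fin 2 → ℝ) → E} (h : Ann S g) : Ann S fun y => g ![y 0, -y 1] :=
  ann_comp h (fun _ => pl_neg (pl_coord 1 _)) (fun _ => neg_surjective) fun _ s s' =>
    ⟨fun ⟨m, hm⟩ => ⟨-m, by simp at hm ⊢; linarith⟩, fun ⟨m, hm⟩ => ⟨-m, by simp; linarith⟩⟩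

omit [FiniteDimensional ℝ E] in
theorem ann_up {S : Set E} {g : (Fin 2 → ℝ) → E} (h : Ann S g) {φ χ : ℝ → ℝ} (hφ : Up φ) (hχ : Up χ) :
    ∃ g', Ann S g' ∧ (∀ s, g' ![-1, s] = g ![-1, φ s]) ∧ ∀ s, g' ![1, s] = g ![1, χ s] := by
  have c1 := continuous_of_pl hφ.pl
  have c2 := continuous_of_pl hχ.pl
  obtain ⟨C, hC⟩ := (Function.Periodic.isBounded_of_continuous (f := fun s => φ s - χ s) (c := 1)
    (fun s => by simp only [hφ.per, hχ.per]; ring) one_ne_zero (c1.sub c2)).exists_norm_le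
  have hC' : ∀ s, |φ s - χ s| ≤ C := fun s => hC _ ⟨s, rfl⟩
  let ω : ℝ → ℝ → ℝ := fun t s => max (min (χ s) (φ s + C * (t + 1))) (φ s - C * (t + 1))
  have m : ∀ t, StrictMono (ω t) := fun t a b hab =>
    max_lt_max (min_lt_min (hχ.mono hab) (by linarith [hφ.mono hab])) (by linarith [hφ.mono hab])
  have p : ∀ t s, ω t (s + 1) = ω t s + 1 := fun t s => by
    simp only [ω, hφ.per, hχ.per, ← max_add_add_right, ← min_add_add_right]
    congr 2 <;> ring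
  have q : ∀ {θ : ℝ → ℝ}, Up θ → ∀ R : ℝ, PLOn (fun y : Fin 2 → ℝ => θ (y 1)) (closedBall 0 R) :=
    fun h R => (h.pl R).comp (pl_coord 1 _) fun y hy =>
      abs_le.1 ((norm_le_pi_norm y 1).trans (mem_closedBall_zero_iff.1 hy))
  have r : ∀ K, PLOn (fun y : Fin 2 → ℝ => C * (y 0 + 1)) K := fun K =>
    pl_mul C (pl_add (pl_coord 0 _) (plOn_const 1 _))
  refine ⟨_, ann_comp h (ψ := fun y => ω (y 0) (y 1)) (fun R => pl_max (pl_min (q hχ R)
    (pl_add (q hφ R) (r _))) (pl_sub (q hφ R) (r _))) (fun t => surj_of_per (φ := ω t) (by fun_prop) (p t))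
    fun t s s' => exists_congr fun k => ?_, fun s => ?_, fun s => ?_⟩
  · have := per_int (p t) s' k
    show ω t s - ω t s' = k ↔ _
    rw [sub_eq_iff_eq_add', sub_eq_iff_eq_add', ← mul_one (k : ℝ), ← this, (m t).injective.eq_iff, mul_one]
  · refine congrArg (fun v => g ![-1, v]) ?_
    show ω (-1) s = φ s
    simp [ω]
  · refine congrArg (fun v => g ![1, v]) ?_
    have := abs_le.1 (hC' s)
    have h0 := (abs_nonneg _).trans (hC' s)
    show max (min (χ s) (φ s + C * (1 + 1))) (φ s - C * (1 + 1)) = χ s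
    rw [min_eq_left (by linarith), max_eq_left (by linarith)]

/-- **ANNF** -/
theorem annf {S G₁ G₂ : Set E} {g : (Fin 2 → ℝ) → E} {γ₁ γ₂ : ℝ → E} (h : Ann S g) (h₁ : Loop G₁ γ₁)
    (h₂ : Loop G₂ γ₂) (e₁ : g '' {y | y 0 = -1} = G₁) (e₂ : g '' {y | y 0 = 1} = G₂) :
    ∃ g', Ann S g' ∧ (∀ s, g' ![-1, s] = γ₁ s) ∧
      ((∀ s, g' ![1, s] = γ₂ s) ∨ ∀ s, g' ![1, s] = γ₂ (-s)) := by
  obtain ⟨φ, u1, a⟩ := loop_lift h₁ (e₁ ▸ ann_loop h (by simp))
  obtain ⟨χ, u2, b⟩ := loop_lift h₂ (e₂ ▸ ann_loop h (by simp))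
  rcases a with a | a <;> rcases b with b | b
  · obtain ⟨g', k1, k2, k3⟩ := ann_up h u1 u2
    exact ⟨g', k1, fun s => (k2 s).trans (a s), Or.inl fun s => (k3 s).trans (b s)⟩
  · obtain ⟨g', k1, k2, k3⟩ := ann_up h u1 u2.rev
    exact ⟨g', k1, fun s => (k2 s).trans (a s), Or.inr fun s => (k3 s).trans (b (-s))⟩
  · obtain ⟨g', k1, k2, k3⟩ := ann_up (ann_flip h) u1 u2.rev
    exact ⟨g', k1, fun s => (k2 s).trans (a s), Or.inr fun s => (k3 s).trans
      ((congrArg (fun v => g ![1, v]) (neg_neg _)).trans (b (-s)))⟩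
  · obtain ⟨g', k1, k2, k3⟩ := ann_up (ann_flip h) u1 u2
    exact ⟨g', k1, fun s => (k2 s).trans (a s), Or.inl fun s => (k3 s).trans (b s)⟩

end Crest.Agent.X212.Ann83
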