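import Crest.Agent.R096.Cb6_609
import Crest.Agent.R105.Iod1_690

/-!
# X212 / Ann83 (helper83), part 1: the complement of a disc in the interior of a disc is the union of two squares
-/

set_option autoImplicit false
set_option linter.unusedSectionVars false

open Set Metric Topology

namespace Crest.Agent.X212.Ann83

open Crest.Agent.R096 Crest.Agent.R096.Ce_537 Crest.Agent.R096.Cb_609

variable {E F : Type*} [NormedAddCommGroup E] [NormedSpace ℝ E] [NormedAddCommGroup F]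
  [NormedSpace ℝ F]

/-- the model arc -/
abbrev II : Set ℝ := Icc (-1) 1

theorem mI : (-1 : ℝ) ∈ II := ⟨le_rfl, by norm_num⟩
theorem pI : (1 : ℝ) ∈ II := ⟨by norm_num, le_rfl⟩
theorem negI {x : ℝ} (h : x ∈ II) : -x ∈ II := ⟨by linarith [h.2], by linarith [h.1]⟩

theorem isBall_I : IsBall 1 II {-1, 1} := by
  have := isBall_segment (a := (-1 : ℝ)) (b := 1) (by norm_num)
  rwa [segment_eq_Icc (by norm_num)] at this

theorem plOn_lin [FiniteDimensional ℝ E] (L : E →ₗ[ℝ] F) (c : F) (K : Set E) :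
    PLOn (fun x => L x + c) K :=
  plOn_affine (L.toAffineMap + AffineMap.const ℝ E c) K

/-- the reflection of the model arc -/
def rv : PLEquiv II II :=
  ⟨fun x => -x, fun x => -x, by simpa using plOn_lin (-LinearMap.id : ℝ →ₗ[ℝ] ℝ) 0 II,
    by simpa using plOn_lin (-LinearMap.id : ℝ →ₗ[ℝ] ℝ) 0 II, fun _ => negI, fun _ => negI,
    fun x _ => neg_neg x, fun x _ => neg_neg x⟩

theorem arc_param {A : Set E} {p q : E} (h : IsBall 1 A {p, q}) :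
    ∃ e : PLEquiv II A, e.f (-1) = p ∧ e.f 1 = q := by
  obtain ⟨e, he, -⟩ := isBall_I.exists_equiv h
  rw [image_pair] at he
  rcases pair_eq_pair_iff.1 he with ⟨h1, h2⟩ | ⟨h1, h2⟩
  · exact ⟨e, h1, h2⟩
  · exact ⟨rv.trans e, by simpa [PLEquiv.trans, rv] using h2, h1⟩

theorem glue_pt {A₁ A₂ : Set E} {B₁ B₂ : Set F} (e₁ : PLEquiv A₁ B₁) (e₂ : PLEquiv A₂ B₂)
    (c₁ : IsCompact A₁) (c₂ : IsCompact A₂) {x : E} {y : F} (hA : A₁ ∩ A₂ = {x}) (hB : B₁ ∩ B₂ = {y})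
    (h₁ : e₁.f x = y) (h₂ : e₂.f x = y) :
    ∃ e : PLEquiv (A₁ ∪ A₂) (B₁ ∪ B₂), EqOn e.f e₁.f A₁ ∧ EqOn e.f e₂.f A₂ := by
  have hx : x ∈ A₁ ∩ A₂ := hA ▸ mem_singleton x
  have hf : EqOn e₁.f e₂.f (A₁ ∩ A₂) := by
    rw [hA]
    rintro _ rfl
    exact h₁.trans h₂.symm
  have hg : EqOn e₁.g e₂.g (B₁ ∩ B₂) := eqOn_g_of_f e₁ e₂ hf (by
    rw [hB]
    rintro _ rfl
    rw [← h₁, e₁.li x hx.1]
    exact hx.2)
  have d₁ : IsClosed B₁ := e₁.image_eq ▸ (c₁.image_of_continuousOn e₁.pf.1).isClosed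
  have d₂ : IsClosed B₂ := e₂.image_eq ▸ (c₂.image_of_continuousOn e₂.pf.1).isClosed
  exact ⟨glue e₁ e₂ c₁.isClosed c₂.isClosed d₁ d₂ hf hg, glue_f₁ _ _ _ _ _ _ _ _, glue_f₂ _ _ _ _ _ _ _ _⟩

/-- horizontal side -/
def hz (c : ℝ) (s : Set ℝ := II) : PLEquiv (s ×ˢ {c}) s :=
  ⟨Prod.fst, fun x => (x, c), by simpa using plOn_lin (LinearMap.fst ℝ ℝ ℝ) 0 _,
    by simpa using plOn_lin (LinearMap.inl ℝ ℝ ℝ) (0, c) s, fun _ h => h.1, fun _ h => ⟨h, rfl⟩,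
    fun _ h => Prod.ext rfl h.2.symm, fun _ _ => rfl⟩

/-- vertical side -/
def vt (c : ℝ) : PLEquiv ({c} ×ˢ II) II :=
  ⟨Prod.snd, fun x => (c, x), by simpa using plOn_lin (LinearMap.snd ℝ ℝ ℝ) 0 _,
    by simpa using plOn_lin (LinearMap.inr ℝ ℝ ℝ) (c, 0) II, fun _ h => h.2, fun _ h => ⟨rfl, h⟩,
    fun _ h => Prod.ext h.1.symm rfl, fun _ _ => rfl⟩

theorem isBall_hz (c : ℝ) : IsBall 1 (II ×ˢ {c}) {((-1 : ℝ), c), (1, c)} := by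
  have := isBall_I.map (hz c).symm
  rwa [image_pair] at this

theorem isBall_vt (c : ℝ) : IsBall 1 ({c} ×ˢ II) {(c, (-1 : ℝ)), (c, 1)} := by
  have := isBall_I.map (vt c).symm
  rwa [image_pair] at this

theorem sq_i1 : (II ×ˢ {(-1 : ℝ)}) ∩ ({(1 : ℝ)} ×ˢ II) = {((1 : ℝ), (-1 : ℝ))} := by
  ext ⟨x, y⟩
  simp only [mem_inter_iff, mem_prod, mem_singleton_iff, Prod.mk.injEq]
  constructor
  · exact fun h => ⟨h.2.1, h.1.2⟩
  · rintro ⟨rfl, rfl⟩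
    exact ⟨⟨pI, rfl⟩, rfl, mI⟩

theorem sq_i2 : (II ×ˢ {(-1 : ℝ)} ∪ {(1 : ℝ)} ×ˢ II) ∩ (II ×ˢ {(1 : ℝ)}) = {((1 : ℝ), (1 : ℝ))} := by
  ext ⟨x, y⟩
  simp only [mem_inter_iff, mem_union, mem_prod, mem_singleton_iff, Prod.mk.injEq]
  constructor
  · rintro ⟨h | h, -, rfl⟩
    · norm_num at h
    · exact ⟨h.1, rfl⟩
  · rintro ⟨rfl, rfl⟩
    exact ⟨Or.inr ⟨rfl, pI⟩, pI, rfl⟩

theorem ballPair_sq : BallPair 1 (II ×ˢ II) (II ×ˢ {(-1 : ℝ)} ∪ {(1 : ℝ)} ×ˢ II ∪ II ×ˢ {(1 : ℝ)})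
    ({(-1 : ℝ)} ×ˢ II) {((-1 : ℝ), (-1 : ℝ)), (-1, 1)} where
  ball := by
    convert isBall_I.prod isBall_I using 1
    ext ⟨x, y⟩
    simp only [mem_union, mem_prod, mem_singleton_iff, mem_insert_iff]
    tauto
  ball₁ := arc_glue (arc_glue (isBall_hz _) (isBall_vt _) sq_i1) (pair_comm _ _ ▸ isBall_hz 1) sq_i2
  ball₂ := isBall_vt _
  inter := by
    ext ⟨x, y⟩
    simp only [mem_inter_iff, mem_union, mem_prod, mem_singleton_iff, mem_insert_iff, Prod.mk.injEq]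
    constructor
    · rintro ⟨(h | h) | h, rfl, -⟩
      · exact Or.inl ⟨rfl, h.2⟩
      · norm_num at h
      · exact Or.inr ⟨rfl, h.2⟩
    · rintro (⟨rfl, rfl⟩ | ⟨rfl, rfl⟩)
      · exact ⟨Or.inl (Or.inl ⟨mI, rfl⟩), rfl, mI⟩
      · exact ⟨Or.inr ⟨mI, rfl⟩, rfl, pI⟩

/-- a disc with four marked sides is a square, two opposite sides being parametrised in advance -/
theorem square {K b m t l : Set E} (β : PLEquiv II b) (τ : PLEquiv II t)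
    (h : BallPair 1 K (b ∪ m ∪ t) l {β.f (-1), τ.f (-1)}) (hm : IsBall 1 m {β.f 1, τ.f 1})
    (i1 : b ∩ m = {β.f 1}) (i2 : (b ∪ m) ∩ t = {τ.f 1}) :
    ∃ e : PLEquiv (II ×ˢ II) K, (∀ x ∈ II, e.f (x, -1) = β.f x) ∧ (∀ x ∈ II, e.f (x, 1) = τ.f x) ∧
      e.f '' ({1} ×ˢ II) = m ∧ e.f '' ({-1} ×ˢ II) = l := by
  obtain ⟨μ, m1, m2⟩ := arc_param hm
  obtain ⟨e₁, a1, a2⟩ := glue_pt ((hz (-1)).trans β) ((vt 1).trans μ) (isBall_hz _).isCompact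
    (isBall_vt _).isCompact sq_i1 i1 rfl m1
  obtain ⟨e₂, a3, a4⟩ := glue_pt e₁ ((hz 1).trans τ)
    ((isBall_hz _).isCompact.union (isBall_vt _).isCompact) (isBall_hz _).isCompact sq_i2 i2
    ((a2 (mk_mem_prod rfl pI)).trans m2) rfl
  have b1 : ∀ x ∈ II, e₂.f (x, -1) = β.f x := fun x hx =>
    (a3 (Or.inl (mk_mem_prod hx rfl))).trans (a1 (mk_mem_prod hx rfl))
  have b2 : ∀ x ∈ II, e₂.f (x, 1) = τ.f x := fun x hx => a4 (mk_mem_prod hx rfl)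
  obtain ⟨e, c1, -, c2⟩ := ballPair_sq.extend h e₂ (by rw [image_pair, b1 _ mI, b2 _ mI])
  refine ⟨e, fun x hx => (c1 (Or.inl (Or.inl (mk_mem_prod hx rfl)))).trans (b1 x hx),
    fun x hx => (c1 (Or.inr (mk_mem_prod hx rfl))).trans (b2 x hx), ?_, c2⟩
  rw [← ((vt 1).trans μ).image_eq]
  exact image_congr fun x hx => (c1 (Or.inl (Or.inr hx))).trans ((a3 (Or.inr hx)).trans (a2 hx))

/-- a ball that meets the common part of two closed sets only in its boundary lies in one of them -/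
theorem side {k : ℕ} {D G X Y : Set E} (hD : IsBall k D G) (hX : IsClosed X) (hY : IsClosed Y)
    (hc : D ⊆ X ∪ Y) (hi : D ∩ (X ∩ Y) ⊆ G) : D ⊆ X ∨ D ⊆ Y := by
  have := isPreconnected_iff_subset_of_disjoint_closed.1 hD.isPreconnected_diff X Y hX hY
    (sdiff_subset.trans hc) (eq_empty_of_forall_notMem fun x hx => hx.1.2 (hi ⟨hx.1.1, hx.2⟩))
  rw [← hD.closure_diff]
  exact this.imp (closure_minimal · hX) (closure_minimal · hY)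

theorem cut_side {k : ℕ} {K S A D G : Set E} {p q : E} (hK : IsBall 2 K S) (hA : IsBall 1 A {p, q})
    (hAK : A ⊆ K) (hAS : A ∩ S = {p, q}) (hD : IsBall k D G) (hDK : D ⊆ K) (hi : D ∩ A ⊆ G) :
    ∃ K₁ K₂ S₁ S₂, BallPair 1 K S₁ S₂ {p, q} ∧ S₁ ∪ S₂ = S ∧ BallPair 1 K₁ A S₁ {p, q} ∧
      BallPair 1 K₂ A S₂ {p, q} ∧ K₁ ∪ K₂ = K ∧ K₁ ∩ K₂ = A ∧ D ⊆ K₂ := by
  obtain ⟨K₁, K₂, S₁, S₂, h1, h2, h3, h4, h5, h6⟩ := cut_disc hK hA hAK hAS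
  rcases side hD h3.ball.isClosed h4.ball.isClosed (h5 ▸ hDK) (h6 ▸ hi) with h | h
  · exact ⟨K₂, K₁, S₂, S₁, h1.symm, by rwa [union_comm], h4, h3, by rwa [union_comm],
      by rwa [inter_comm], h⟩
  · exact ⟨K₁, K₂, S₁, S₂, h1, h2, h3, h4, h5, h6, h⟩

/-- two squares glued to an annulus with boundary circles `G₁`, `G₂` -/
structure TwoSq (S G₁ G₂ : Set E) (h k : ℝ × ℝ → E) : Prop where
  ph : PLOn h (II ×ˢ II)
  pk : PLOn k (II ×ˢ II)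
  ih : InjOn h (II ×ˢ II)
  ik : InjOn k (II ×ˢ II)
  up : ∀ x ∈ II, h (x, 1) = k (x, -1)
  dn : ∀ x ∈ II, k (x, 1) = h (x, -1)
  fib : ∀ z ∈ II ×ˢ II, ∀ w ∈ II ×ˢ II, h z = k w → z.2 = 1 ∨ z.2 = -1
  im : h '' (II ×ˢ II) ∪ k '' (II ×ˢ II) = S
  lf : h '' ({-1} ×ˢ II) ∪ k '' ({-1} ×ˢ II) = G₁
  rt : h '' ({1} ×ˢ II) ∪ k '' ({1} ×ˢ II) = G₂

theorem twoSq_of_arcs {B G₁ D G a a' : Set E} (hB : IsBall 2 B G₁) (hD : IsBall 2 D G) (hDB : D ⊆ B)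
    (hd : Disjoint D G₁) (α : PLEquiv II a) (α' : PLEquiv II a') (ha : a ⊆ B) (ha' : a' ⊆ B)
    (i1 : a ∩ D = {α.f 1}) (i1' : a' ∩ D = {α'.f 1}) (hp : α.f 1 ∈ G) (hp' : α'.f 1 ∈ G)
    (i2 : a ∩ G₁ = {α.f (-1)}) (i2' : a' ∩ G₁ = {α'.f (-1)}) (hdis : Disjoint a a') :
    ∃ h k, TwoSq (B \ (D \ G)) G₁ G h k := by
  set p := α.f 1 with ep
  set p' := α'.f 1 with ep'
  set q := α.f (-1) with eq
  set q' := α'.f (-1) with eq'
  have b1 : IsBall 1 a {q, p} := image_pair _ _ _ ▸ isBall_I.map α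
  have b2 : IsBall 1 a' {q', p'} := image_pair _ _ _ ▸ isBall_I.map α'
  have pa : p ∈ a := α.mf pI
  have pa' : p' ∈ a' := α'.mf pI
  have qa : q ∈ a := α.mf mI
  have qa' : q' ∈ a' := α'.mf mI
  have dd := disjoint_left.1 hdis
  have dG := disjoint_left.1 hd
  have m1 : ∀ x ∈ a, x ∈ D → x = p := fun x h h' => mem_singleton_iff.1 (i1 ▸ ⟨h, h'⟩)
  have m1' : ∀ x ∈ a', x ∈ D → x = p' := fun x h h' => mem_singleton_iff.1 (i1' ▸ ⟨h, h'⟩)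
  have m2 : ∀ x ∈ a, x ∈ G₁ → x = q := fun x h h' => mem_singleton_iff.1 (i2 ▸ ⟨h, h'⟩)
  have m2' : ∀ x ∈ a', x ∈ G₁ → x = q' := fun x h h' => mem_singleton_iff.1 (i2' ▸ ⟨h, h'⟩)
  have qG : q ∈ G₁ := (i2.ge rfl).2
  have qG' : q' ∈ G₁ := (i2'.ge rfl).2
  obtain ⟨A₀, A₀', t0, t0'⟩ := two_marks hD hp hp' fun h => dd pa (h ▸ pa')
  -- the first cut
  have j1 : ∀ {A : Set E}, IsBall 1 A {p, p'} → A ⊆ D → a ∩ A = {p} ∧ (a ∪ A) ∩ a' = {p'} :=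
    fun {A} h hs => ⟨Subset.antisymm (fun x hx => m1 x hx.1 (hs hx.2))
      (singleton_subset_iff.2 ⟨pa, h.subset (by simp)⟩), Subset.antisymm (fun x hx =>
        hx.1.elim (fun h' => absurd hx.2 (dd h')) fun h' => m1' x hx.2 (hs h'))
      (singleton_subset_iff.2 ⟨Or.inr (h.subset (by simp)), pa'⟩)⟩
  obtain ⟨j2, j3⟩ := j1 t0.ball₁ t0.subset₁
  have AG : A₀ ⊆ G := t0' ▸ subset_union_left
  have AG' : A₀' ⊆ G := t0' ▸ subset_union_right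
  obtain ⟨K₁, K₂, S₁, S₂, c1, c2, c3, c4, c5, c6, c7⟩ := cut_side hB
    (arc_glue (arc_glue b1 t0.ball₁ j2) (pair_comm q' p' ▸ b2) j3)
    (union_subset (union_subset ha (t0.subset₁.trans hDB)) ha')
    (Subset.antisymm (by
      rintro x ⟨(h | h) | h, h'⟩
      exacts [Or.inl (m2 x h h'), absurd h' (dG (t0.subset₁ h)), Or.inr (m2' x h h')])
      (pair_subset ⟨Or.inl (Or.inl qa), qG⟩ ⟨Or.inr qa', qG'⟩)) hD hDB (by
      rintro x ⟨h', (h | h) | h⟩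
      exacts [m1 x h h' ▸ hp, AG h, m1' x h h' ▸ hp'])
  have SG : S₂ ⊆ G₁ := c2 ▸ subset_union_right
  -- the second cut
  have pp : ({p, p'} : Set E) ⊆ a ∪ a' := pair_subset (Or.inl pa) (Or.inr pa')
  obtain ⟨L₁, L₂, T₁, T₂, d1, d2, d3, d4, d5, d6, d7⟩ := cut_side c4.ball t0.ball₂
    (t0.subset₂.trans c7) (Subset.antisymm (by
      rintro x ⟨h', ((h | h) | h) | h⟩
      exacts [Or.inl (m1 x h (t0.subset₂ h')), t0.inter ▸ ⟨h, h'⟩, Or.inr (m1' x h (t0.subset₂ h')),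
        absurd (SG h) (dG (t0.subset₂ h'))])
      fun x hx => ⟨t0.ball₂.subset hx, Or.inl (Or.inl (Or.inr (t0.ball₁.subset hx)))⟩) hD c7
      (inter_subset_right.trans AG')
  have e1 : A₀ = T₂ := by
    refine ball_eq_of_subset t0.ball₁ d1.ball₂ ((side t0.ball₁ d1.ball₁.isClosed d1.ball₂.isClosed
      (d2 ▸ fun x hx => Or.inl (Or.inl (Or.inr hx))) (d1.inter ▸ inter_subset_right)).resolve_left
      fun h => ?_)
    obtain ⟨x, hx, hx'⟩ := t0.ball₁.nonempty_diff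
    exact hx' (t0.inter ▸ ⟨hx, d6 ▸ ⟨d3.subset₂ (h hx), d7 (t0.subset₁ hx)⟩⟩)
  subst e1
  obtain rfl : D = L₂ := ball_eq_of_subset hD (by rw [← t0', union_comm]; exact d4.ball) d7
  have k1 : a' ∩ S₂ = {q'} := Subset.antisymm (fun x hx => m2' x hx.1 (SG hx.2))
    (singleton_subset_iff.2 ⟨qa', c1.ball₂.subset (by simp)⟩)
  have k2 : (a' ∪ S₂) ∩ a = {q} := Subset.antisymm (fun x hx =>
      hx.1.elim (fun h' => absurd h' (dd hx.2)) fun h' => m2 x hx.2 (SG h'))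
    (singleton_subset_iff.2 ⟨Or.inr (c1.ball₂.subset (by simp)), qa⟩)
  have k3 : IsBall 1 S₂ {q', q} := pair_comm q q' ▸ c1.ball₂
  have e2 : a' ∪ S₂ ∪ a = T₁ := by
    refine ball_eq_of_subset (arc_glue (arc_glue (pair_comm q' p' ▸ b2) k3 k1) b1 k2)
      (pair_comm p p' ▸ d1.ball₁) fun x hx => ?_
    have : x ∈ T₁ ∪ A₀ := by
      rw [d2]
      rcases hx with (h | h) | h
      exacts [Or.inl (Or.inr h), Or.inr h, Or.inl (Or.inl (Or.inl h))]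
    refine this.elim id fun h' => d1.ball₁.subset ?_
    rcases hx with (h | h) | h
    exacts [Or.inr (m1' x h (t0.subset₁ h')), absurd (SG h) (dG (t0.subset₁ h')),
      Or.inl (m1 x h (t0.subset₁ h'))]
  subst e2
  obtain ⟨e, f1, f2, f3, f4⟩ := square α α' c3 t0.ball₁ j2 j3
  obtain ⟨e', g1, g2, g3, g4⟩ := square (K := L₁) (m := S₂) (l := A₀') (rv.trans α') (rv.trans α)
    (by simpa only [PLEquiv.trans, rv, neg_neg, ← ep, ← ep', pair_comm p' p] using d3.symm) k3 k1 k2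
  let ρ : PLEquiv (II ×ˢ II) (II ×ˢ II) := prodEquiv rv (PLEquiv.refl II)
  have ρ1 : ∀ c : ℝ, ρ.f '' ({c} ×ˢ II) = {-c} ×ˢ II := fun c => by
    ext ⟨x, y⟩
    refine ⟨?_, fun h => ⟨(c, y), ⟨rfl, h.2⟩, Prod.ext h.1.symm rfl⟩⟩
    rintro ⟨z, hz, e⟩
    rw [← e]
    exact ⟨congrArg Neg.neg hz.1, hz.2⟩
  have ρ2 : ∀ s, (ρ.trans e').f '' s = e'.f '' (ρ.f '' s) := fun s => (image_image e'.f ρ.f s).symm
  have KL : ∀ x ∈ K₁, x ∈ L₁ → x ∈ a ∪ a' := fun x h h' => by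
    rcases (c6.le ⟨h, d5.le (Or.inl h')⟩) with (h1 | h1) | h1
    exacts [Or.inl h1, pp (t0.inter.le ⟨h1, d6.le ⟨h', t0.subset₁ h1⟩⟩), Or.inr h1]
  refine ⟨e.f, (ρ.trans e').f, e.pf, (ρ.trans e').pf, e.injOn, (ρ.trans e').injOn, fun x hx => ?_,
    fun x hx => ?_, fun z hz w hw h => ?_, ?_, ?_, ?_⟩
  · rw [f2 x hx]
    exact ((g1 _ (negI hx)).trans (congrArg α'.f (neg_neg x))).symm
  · rw [f1 x hx]
    exact (g2 _ (negI hx)).trans (congrArg α.f (neg_neg x))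
  · rcases KL _ (e.mf hz) (h ▸ (ρ.trans e').mf hw) with h1 | h1
    · have := e.injOn hz (x₂ := (_, -1)) ⟨α.mg h1, mI⟩ (by rw [f1 _ (α.mg h1), α.ri _ h1])
      exact Or.inr (congrArg Prod.snd this)
    · have := e.injOn hz (x₂ := (_, 1)) ⟨α'.mg h1, pI⟩ (by rw [f2 _ (α'.mg h1), α'.ri _ h1])
      exact Or.inl (congrArg Prod.snd this)
  · rw [e.image_eq, (ρ.trans e').image_eq, ← c5, ← d5]
    refine Subset.antisymm ?_ ?_
    · rintro x (h | h)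
      · refine ⟨Or.inl h, fun h' => h'.2 ?_⟩
        rcases c6.le ⟨h, c7 h'.1⟩ with (h1 | h1) | h1
        exacts [m1 x h1 h'.1 ▸ hp, AG h1, m1' x h1 h'.1 ▸ hp']
      · exact ⟨Or.inr (Or.inl h), fun h' => h'.2 (AG' (d6.le ⟨h, h'.1⟩))⟩
    · rintro x ⟨h | h | h, h'⟩
      · exact Or.inl h
      · exact Or.inr h
      · rcases t0'.ge (not_not.1 fun h2 => h' ⟨h, h2⟩) with h1 | h1
        exacts [Or.inl (c3.subset₁ (Or.inl (Or.inr h1))), Or.inr (d3.subset₁ h1)]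
  · rw [f4, ρ2, ρ1, neg_neg, g3, c2]
  · rw [f3, ρ2, ρ1, g4, t0']

theorem TwoSq.map {S G₁ G₂ B : Set E} {B' : Set F} {h k : ℝ × ℝ → E} (H : TwoSq S G₁ G₂ h k)
    (e : PLEquiv B B') (hS : S ⊆ B) :
    TwoSq (e.f '' S) (e.f '' G₁) (e.f '' G₂) (fun z => e.f (h z)) fun z => e.f (k z) := by
  have m1 : MapsTo h (II ×ˢ II) B := fun z hz => hS (H.im.le (Or.inl ⟨z, hz, rfl⟩))
  have m2 : MapsTo k (II ×ˢ II) B := fun z hz => hS (H.im.le (Or.inr ⟨z, hz, rfl⟩))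
  refine ⟨e.pf.comp H.ph m1, e.pf.comp H.pk m2, e.injOn.comp H.ih m1, e.injOn.comp H.ik m2,
    fun x hx => by rw [H.up x hx], fun x hx => by rw [H.dn x hx],
    fun z hz w hw h => H.fib z hz w hw (e.injOn (m1 hz) (m2 hw) h), ?_, ?_, ?_⟩
  · rw [← H.im, image_union, image_image, image_image]
  · rw [← H.lf, image_union, image_image, image_image]
  · rw [← H.rt, image_union, image_image, image_image]

theorem arc_hz {u v : ℝ} (h : u < v) (c : ℝ) : IsBall 1 (Icc u v ×ˢ {c}) {(u, c), (v, c)} := by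
  have h1 := isBall_segment h.ne
  rw [segment_eq_Icc h.le] at h1
  have := h1.map (hz c (Icc u v)).symm
  rwa [image_pair] at this

theorem twoSq_model {D G : Set (ℝ × ℝ)} (hD : IsBall 2 D G) (hDB : D ⊆ II ×ˢ II)
    (hd : Disjoint D ({-1, 1} ×ˢ II ∪ II ×ˢ {-1, 1})) :
    ∃ h k, TwoSq (II ×ˢ II \ (D \ G)) ({-1, 1} ×ˢ II ∪ II ×ˢ {-1, 1}) G h k := by
  have hO : IsOpen (D \ G) := by
    obtain ⟨e, he⟩ := hD
    rw [diff_eq_image e he]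
    exact R105.Iod1_690.isOpen_image_fd (by simp) isOpen_ball (e.pf.1.mono ball_subset_closedBall)
      (e.injOn.mono ball_subset_closedBall)
  have hs : ∀ w ∈ D \ G, ∃ ε > (0 : ℝ), (w.1 - ε, w.2) ∈ D ∧ (w.1 + ε, w.2) ∈ D := fun w hw => by
    obtain ⟨ε, h0, h1⟩ := Metric.isOpen_iff.1 hO w hw
    refine ⟨ε / 2, half_pos h0, (h1 ?_).1, (h1 ?_).1⟩ <;>
      simp [Prod.dist_eq, abs_of_pos h0, h0]
  obtain ⟨p, hp, h1⟩ := hD.isCompact.exists_isMinOn hD.nonempty continuous_fst.continuousOn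
  obtain ⟨p', hp', h2⟩ := hD.isCompact.exists_isMaxOn hD.nonempty continuous_fst.continuousOn
  have g1 : p ∈ G := not_not.1 fun h => by
    obtain ⟨ε, h0, h3, -⟩ := hs p ⟨hp, h⟩
    have : p.1 ≤ p.1 - ε := h1 h3
    linarith
  have g2 : p' ∈ G := not_not.1 fun h => by
    obtain ⟨ε, h0, -, h3⟩ := hs p' ⟨hp', h⟩
    have : p'.1 + ε ≤ p'.1 := h2 h3
    linarith
  have lt : p.1 < p'.1 := by
    obtain ⟨w, hw⟩ := hD.nonempty_diff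
    obtain ⟨ε, h0, h3, h4⟩ := hs w hw
    have a : p.1 ≤ w.1 - ε := h1 h3
    have b : w.1 + ε ≤ p'.1 := h2 h4
    linarith
  have dd := disjoint_left.1 hd
  have n : ∀ z ∈ D, -1 < z.1 ∧ z.1 < 1 ∧ z.2 ≠ -1 ∧ z.2 ≠ 1 := fun z hz =>
    ⟨(hDB hz).1.1.lt_of_ne fun e => dd hz (Or.inl ⟨Or.inl e.symm, (hDB hz).2⟩),
      (hDB hz).1.2.lt_of_ne fun e => dd hz (Or.inl ⟨Or.inr e, (hDB hz).2⟩),
      fun e => dd hz (Or.inr ⟨(hDB hz).1, Or.inl e⟩), fun e => dd hz (Or.inr ⟨(hDB hz).1, Or.inr e⟩)⟩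
  obtain ⟨n1, n2, n3, n4⟩ := n p hp
  obtain ⟨n1', n2', n3', n4'⟩ := n p' hp'
  obtain ⟨α, a1, a2⟩ := arc_param (arc_hz n1 p.2)
  obtain ⟨α', a1', a2'⟩ := arc_param (pair_comm _ _ ▸ arc_hz n2' p'.2)
  refine twoSq_of_arcs (isBall_I.prod isBall_I) hD hDB hd α α'
    (fun z hz => ⟨⟨hz.1.1, hz.1.2.trans n2.le⟩, hz.2 ▸ (hDB hp).2⟩)
    (fun z hz => ⟨⟨n1'.le.trans hz.1.1, hz.1.2⟩, hz.2 ▸ (hDB hp').2⟩) ?_ ?_ (a2 ▸ g1) (a2' ▸ g2) ?_ ?_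
    (disjoint_left.2 fun z hz hz' => absurd (hz'.1.1.trans hz.1.2) lt.not_ge)
  · rw [a2]
    exact Subset.antisymm (fun z hz => Prod.ext (le_antisymm hz.1.1.2 (h1 hz.2)) hz.1.2)
      (singleton_subset_iff.2 ⟨⟨⟨n1.le, le_rfl⟩, rfl⟩, hp⟩)
  · rw [a2']
    exact Subset.antisymm (fun z hz => Prod.ext (le_antisymm (h2 hz.2) hz.1.1.1) hz.1.2)
      (singleton_subset_iff.2 ⟨⟨⟨le_rfl, n2'.le⟩, rfl⟩, hp'⟩)
  · rw [a1]
    refine Subset.antisymm ?_ (singleton_subset_iff.2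
      ⟨⟨⟨le_rfl, n1.le⟩, rfl⟩, Or.inl ⟨Or.inl rfl, (hDB hp).2⟩⟩)
    rintro z ⟨hz, ⟨h | h, -⟩ | ⟨-, h | h⟩⟩
    · exact Prod.ext h hz.2
    · exact absurd (h.ge.trans hz.1.2) n2.not_ge
    · exact absurd (hz.2.symm.trans h) n3
    · exact absurd (hz.2.symm.trans h) n4
  · rw [a1']
    refine Subset.antisymm ?_ (singleton_subset_iff.2
      ⟨⟨⟨n2'.le, le_rfl⟩, rfl⟩, Or.inl ⟨Or.inr rfl, (hDB hp').2⟩⟩)
    rintro z ⟨hz, ⟨h | h, -⟩ | ⟨-, h | h⟩⟩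
    · exact absurd (hz.1.1.trans h.le) n1'.not_ge
    · exact Prod.ext h hz.2
    · exact absurd (hz.2.symm.trans h) n3'
    · exact absurd (hz.2.symm.trans h) n4'

/-- a disc minus the interior of a disc in its interior -/
theorem twoSq_of_disc {B G₁ D G : Set E} (hB : IsBall 2 B G₁) (hD : IsBall 2 D G) (hDB : D ⊆ B)
    (hd : Disjoint D G₁) : ∃ h k, TwoSq (B \ (D \ G)) G₁ G h k := by
  obtain ⟨e, he, -⟩ := (isBall_I.prod isBall_I).exists_equiv hB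
  have hG := hD.subset.trans hDB
  obtain ⟨h, k, H⟩ := twoSq_model (hD.map (e.symm.restrImage hDB))
    (by rintro _ ⟨x, hx, rfl⟩; exact e.mg (hDB hx)) (disjoint_left.2 (by
      rintro _ ⟨x, hx, rfl⟩ h
      exact disjoint_left.1 hd hx (he.le ⟨_, h, e.ri x (hDB hx)⟩)))
  have := H.map e sdiff_subset
  rw [he, show e.f '' ((e.symm.restrImage hDB).f '' G) = G from image_g e.symm hG rfl] at this
  suffices e1 : e.f '' (II ×ˢ II \ (e.g '' D \ e.g '' G)) = B \ (D \ G) from ⟨_, _, e1 ▸ this⟩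
  refine Subset.antisymm ?_ fun x hx => ⟨e.g x, ⟨e.mg hx.1, fun h => hx.2 ?_⟩, e.ri x hx.1⟩
  · rintro _ ⟨z, hz, rfl⟩
    refine ⟨e.mf hz.1, fun h => hz.2 ⟨⟨_, h.1, e.li z hz.1⟩, ?_⟩⟩
    rintro ⟨x, hx, rfl⟩
    exact h.2 ((e.ri x (hG hx)).symm ▸ hx)
  · obtain ⟨⟨y, hy, e1⟩, h2⟩ := h
    obtain rfl := e.symm.injOn (hDB hy) hx.1 e1
    exact ⟨hy, fun h => h2 ⟨y, h, rfl⟩⟩

end Crest.Agent.X212.Ann83
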